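import Vale.Agent.H14.Borsuk63.Data

/-!
# Kernel computations for the two eigenvectors `g1`, `g2` of the Borsuk63 graph

The two `(0, 1, -1)`-vectors `g1`, `g2` of `Vale.Agent.H14.Borsuk63` vanish on the first `320`
vertices, are eigenvectors of the adjacency relation `adj` for the eigenvalue `20`, have coordinate
sum `0`, squared norm `64` and inner product `32`.
-/

open Vale.Agent.H14.Borsuk63

namespace Vale.Agent.H80

/-- Recursive sum of an integer sequence over an initial segment. -/
def sumTo (f : ℕ → ℤ) : ℕ → ℤ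
  | 0 => 0
  | n + 1 => sumTo f n + f n

theorem sumTo_eq (f : ℕ → ℤ) (n : ℕ) : sumTo f n = ∑ w ∈ Finset.range n, f w := by
  induction n with
  | zero => rfl
  | succ n ih => rw [sumTo, Finset.sum_range_succ, ih]

set_option maxRecDepth 100000 in
set_option maxHeartbeats 0 in
theorem g_low : ∀ v, v < 320 → g1 v = 0 ∧ g2 v = 0 := by
  decide +kernel

theorem g_top : g1 320 = 1 ∧ g2 320 = 0 := by
  decide +kernel

set_option maxRecDepth 100000 in
set_option maxHeartbeats 0 in
theorem g1_sum : (∑ w ∈ Finset.range 416, g1 w) = 0 := by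
  rw [← sumTo_eq]; decide +kernel

set_option maxRecDepth 100000 in
set_option maxHeartbeats 0 in
theorem g2_sum : (∑ w ∈ Finset.range 416, g2 w) = 0 := by
  rw [← sumTo_eq]; decide +kernel

set_option maxRecDepth 100000 in
set_option maxHeartbeats 0 in
theorem g1_g1 : (∑ w ∈ Finset.range 416, g1 w * g1 w) = 64 := by
  rw [← sumTo_eq]; decide +kernel

set_option maxRecDepth 100000 in
set_option maxHeartbeats 0 in
theorem g2_g2 : (∑ w ∈ Finset.range 416, g2 w * g2 w) = 64 := by
  rw [← sumTo_eq]; decide +kernel

set_option maxRecDepth 100000 in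
set_option maxHeartbeats 0 in
theorem g1_g2 : (∑ w ∈ Finset.range 416, g1 w * g2 w) = 32 := by
  rw [← sumTo_eq]; decide +kernel

set_option maxRecDepth 100000 in
set_option maxHeartbeats 0 in
theorem g1_eig_aux : ∀ v, v < 416 →
    sumTo (fun x => if adj v (320 + x) = true then g1 (320 + x) else 0) 96 = 20 * g1 v := by
  decide +kernel

set_option maxRecDepth 100000 in
set_option maxHeartbeats 0 in
theorem g2_eig_aux : ∀ v, v < 416 →
    sumTo (fun x => if adj v (320 + x) = true then g2 (320 + x) else 0) 96 = 20 * g2 v := by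
  decide +kernel

theorem g1_eig : ∀ v, v < 416 →
    (∑ w ∈ Finset.range 416, if adj v w = true then g1 w else 0) = 20 * g1 v := by
  intro v hv
  have h0 : ∑ w ∈ Finset.range 320, (if adj v w = true then g1 w else 0) = 0 := by
    apply Finset.sum_eq_zero
    intro w hw
    rw [(g_low w (Finset.mem_range.mp hw)).1]
    simp
  have h1 := Finset.sum_range_add (fun w => if adj v w = true then g1 w else 0) 320 96
  rw [show (416 : ℕ) = 320 + 96 from rfl, h1, h0, zero_add, ← sumTo_eq]
  exact g1_eig_aux v hv

theorem g2_eig : ∀ v, v < 416 →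
    (∑ w ∈ Finset.range 416, if adj v w = true then g2 w else 0) = 20 * g2 v := by
  intro v hv
  have h0 : ∑ w ∈ Finset.range 320, (if adj v w = true then g2 w else 0) = 0 := by
    apply Finset.sum_eq_zero
    intro w hw
    rw [(g_low w (Finset.mem_range.mp hw)).2]
    simp
  have h1 := Finset.sum_range_add (fun w => if adj v w = true then g2 w else 0) 320 96
  rw [show (416 : ℕ) = 320 + 96 from rfl, h1, h0, zero_add, ← sumTo_eq]
  exact g2_eig_aux v hv

end Vale.Agent.H80
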